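import Vale.Agent.P247.H647.Sta

/-!
# P247, stage 2, `S2-ASMS`: from the estimates to `Higgs D`
-/

open scoped ContDiff Topology
open Set MeasureTheory Filter Metric

noncomputable section

namespace Vale.Agent.P247.H103

open Vale.Agent.P247.H74 Vale.Agent.P247.H574 Vale.Agent.P247.H647

lemma abs_le_len (v : Fin 3 → ℝ) (j : Fin 3) : |v j| ≤ len v := by
  unfold len
  apply Real.abs_le_sqrt
  exact Finset.single_le_sum (f := fun k => v k ^ 2) (fun k _ => sq_nonneg _) (Finset.mem_univ j)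

lemma len_le (v : Fin 3 → ℝ) (B : ℝ) (hB : 0 ≤ B) (h : ∀ j, |v j| ≤ B) : len v ≤ 3 * B := by
  unfold len
  rw [Real.sqrt_le_left (by positivity)]
  have h1 : ∀ j, v j ^ 2 ≤ B ^ 2 := fun j => sq_le_sq' (abs_le.mp (h j)).1 (abs_le.mp (h j)).2
  rw [Fin.sum_univ_three]
  nlinarith [h1 0, h1 1, h1 2, sq_nonneg B]

lemma len_smul (r : ℝ) (hr : 0 ≤ r) (v : Fin 3 → ℝ) : len (fun j => r * v j) = r * len v := by
  unfold len
  have : ∑ k, (r * v k) ^ 2 = r ^ 2 * ∑ k, v k ^ 2 := by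
    rw [Finset.mul_sum]
    exact Finset.sum_congr rfl fun k _ => by ring
  rw [this, Real.sqrt_mul (sq_nonneg r), Real.sqrt_sq hr]

lemma bdd_entry (f : R4 → ℝ) (hf : Continuous f) : ∃ B : ℝ, ∀ x ∈ cube, |f x| ≤ B := by
  obtain ⟨B, hB⟩ := (isCompact_Icc (a := (0 : R4)) (b := 1)).exists_bound_of_continuousOn
    hf.continuousOn
  exact ⟨B, fun x hx => by simpa [Real.norm_eq_abs] using hB x hx⟩

lemma bdd_mat {m n : ℕ} (F : R4 → Matrix (Fin m) (Fin n) ℝ) (hf : Continuous F) :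
    ∃ B : ℝ, 0 ≤ B ∧ ∀ x ∈ cube, ∀ i j, |F x i j| ≤ B := by
  have h : ∀ i j, ∃ B : ℝ, ∀ x ∈ cube, |F x i j| ≤ B := fun i j =>
    bdd_entry _ ((continuous_apply j).comp ((continuous_apply i).comp hf))
  choose B hB using h
  refine ⟨∑ i, ∑ j, |B i j|, by positivity, fun x hx i j => ?_⟩
  calc |F x i j| ≤ B i j := hB i j x hx
    _ ≤ |B i j| := le_abs_self _
    _ ≤ ∑ j, |B i j| := Finset.single_le_sum (f := fun j => |B i j|)
        (fun _ _ => abs_nonneg _) (Finset.mem_univ j)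
    _ ≤ ∑ i, ∑ j, |B i j| := Finset.single_le_sum (f := fun i => ∑ j, |B i j|)
        (fun _ _ => by positivity) (Finset.mem_univ i)

lemma rho_bound {D : Data} (Q : Quat D) :
    ∃ C : ℝ, 0 ≤ C ∧ ∀ x ∈ cube, ∀ v : Fin 3 → ℝ, Q.rho v x ≤ C * len v := by
  have hT : Continuous Q.T := continuous_matrix fun i j => (Q.T_smooth i j).continuous
  have hinv : Continuous fun x => (Q.T x)⁻¹ := by
    have : (fun x => (Q.T x)⁻¹) = fun x => (Q.T x).det⁻¹ • (Q.T x).adjugate := by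
      funext x
      rw [Matrix.inv_def, Ring.inverse_eq_inv']
    rw [this]
    exact (hT.matrix_det.inv₀ Q.T_det).smul hT.matrix_adjugate
  obtain ⟨B, hB0, hB⟩ := bdd_mat _ hinv
  refine ⟨2 * (3 * (3 * B)), by positivity, fun x hx v => ?_⟩
  unfold Quat.rho
  have hl : 0 ≤ len v := Real.sqrt_nonneg _
  have : len (Q.dv x v) ≤ 3 * (3 * B * len v) := by
    refine len_le _ _ (by positivity) fun j => ?_
    unfold Quat.dv
    simp only [Matrix.mulVec, dotProduct]
    calc |∑ k, (Q.T x)⁻¹ j k * v k| ≤ ∑ k, |(Q.T x)⁻¹ j k * v k| := Finset.abs_sum_le_sum_abs _ _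
      _ ≤ ∑ _k : Fin 3, B * len v := by
          refine Finset.sum_le_sum fun k _ => ?_
          rw [abs_mul]
          exact mul_le_mul (hB x hx j k) (abs_le_len v k) (abs_nonneg _) hB0
      _ = 3 * B * len v := by simp; ring
  nlinarith

/-- the standard basis in the frame -/
lemma frame_inv {D : Data} (Q : Quat D) :
    ∃ (C : ℝ) (g : R4 → Matrix (Fin 4) (Fin 4) ℝ), 0 ≤ C ∧
      (∀ x i, e i = ∑ c, g x c i • Q.b c x) ∧ ∀ x ∈ cube, ∀ c i, |g x c i| ≤ C := by
  set Bm : R4 → Matrix (Fin 4) (Fin 4) ℝ := fun x => Matrix.of fun i a => Q.b a x i with hBm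
  have hBc : Continuous Bm := continuous_matrix fun i a =>
    (continuous_apply i).comp (Q.b_smooth a).continuous
  obtain ⟨C, hC0, hC⟩ := bdd_mat _ hBc.matrix_adjugate
  refine ⟨C, fun x => (Bm x).adjugate, hC0, fun x i => ?_, hC⟩
  have h1 : Bm x * (Bm x).adjugate = 1 := by
    rw [Matrix.mul_adjugate, Q.b_det x, one_smul]
  funext j
  have h2 := congrFun (congrFun h1 j) i
  simp only [Matrix.mul_apply, hBm, Matrix.of_apply] at h2
  simp only [e, Finset.sum_apply, Pi.smul_apply, smul_eq_mul]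
  rw [Matrix.one_apply] at h2
  rw [Pi.single_apply, ← h2]
  exact Finset.sum_congr rfl fun c _ => by ring

lemma nab_eq (a : R4 → R4 →L[ℝ] ℝ) (α : R4 → ℂ) (x u : R4) : nab a α x u = cov a α x u := by
  simp [nab, cov]

lemma cov_sum (a : R4 → R4 →L[ℝ] ℝ) (α : R4 → ℂ) (x : R4) (g : Fin 4 → ℝ) (b : Fin 4 → R4) :
    cov a α x (∑ c, g c • b c) = ∑ c, g c • cov a α x (b c) := by
  simp only [cov, map_sum, map_smul, smul_sub, Finset.sum_sub_distrib]
  congr 1
  push_cast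
  rw [Finset.mul_sum, Finset.sum_smul]
  refine Finset.sum_congr rfl fun c _ => ?_
  simp only [smul_eq_mul, Complex.real_smul]
  push_cast
  ring

lemma en_le {D : Data} (Q : Quat D) : ∃ C : ℝ, 0 ≤ C ∧
    ∀ (a : R4 → R4 →L[ℝ] ℝ) (α : R4 → ℂ), ∀ x ∈ cube,
      ∑ i, ‖nab a α x (e i)‖ ^ 2 ≤ C * ∑ c, ‖cov a α x (Q.b c x)‖ ^ 2 := by
  obtain ⟨C, g, hC0, hg, hgC⟩ := frame_inv Q
  refine ⟨16 * C ^ 2, by positivity, fun a α x hx => ?_⟩
  have h1 : ∀ i, ‖nab a α x (e i)‖ ^ 2 ≤ 4 * C ^ 2 * ∑ c, ‖cov a α x (Q.b c x)‖ ^ 2 := by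
    intro i
    rw [nab_eq, hg x i, cov_sum]
    have h2 : ‖∑ c, g x c i • cov a α x (Q.b c x)‖ ≤ ∑ c, C * ‖cov a α x (Q.b c x)‖ := by
      refine (norm_sum_le _ _).trans (Finset.sum_le_sum fun c _ => ?_)
      rw [norm_smul]
      exact mul_le_mul_of_nonneg_right (hgC x hx c i) (norm_nonneg _)
    have h3 : ‖∑ c, g x c i • cov a α x (Q.b c x)‖ ^ 2 ≤
        (∑ c, C * ‖cov a α x (Q.b c x)‖) ^ 2 := by
      gcongr
    refine h3.trans ?_
    rw [← Finset.mul_sum, mul_pow]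
    have h4 : (∑ c, ‖cov a α x (Q.b c x)‖) ^ 2 ≤ 4 * ∑ c, ‖cov a α x (Q.b c x)‖ ^ 2 := by
      have := sq_sum_le_card_mul_sum_sq (s := (Finset.univ : Finset (Fin 4)))
        (f := fun c => ‖cov a α x (Q.b c x)‖)
      simpa using this
    nlinarith [sq_nonneg C]
  calc ∑ i, ‖nab a α x (e i)‖ ^ 2
      ≤ ∑ _i : Fin 4, 4 * C ^ 2 * ∑ c, ‖cov a α x (Q.b c x)‖ ^ 2 :=
        Finset.sum_le_sum fun i _ => h1 i
    _ = 16 * C ^ 2 * ∑ c, ‖cov a α x (Q.b c x)‖ ^ 2 := by simp; ring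

lemma cov_cont {D : Data} (Q : Quat D) {a : R4 → R4 →L[ℝ] ℝ} {α : R4 → ℂ} (ha : ContDiff ℝ ∞ a)
    (hα : ContDiff ℝ ∞ α) (c : Fin 4) : Continuous fun x => cov a α x (Q.b c x) := by
  unfold cov
  have h1 : Continuous (fderiv ℝ α) := hα.continuous_fderiv (by simp)
  have hb := (Q.b_smooth c).continuous
  exact (h1.clm_apply hb).sub ((continuous_const.mul
    (Complex.continuous_ofReal.comp (ha.continuous.clm_apply hb))).smul hα.continuous)

lemma nab_cont {a : R4 → R4 →L[ℝ] ℝ} {α : R4 → ℂ} (ha : ContDiff ℝ ∞ a)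
    (hα : ContDiff ℝ ∞ α) (u : R4) : Continuous fun x => nab a α x u := by
  unfold nab
  have h1 : Continuous (fderiv ℝ α) := hα.continuous_fderiv (by simp)
  exact (h1.clm_apply continuous_const).sub ((continuous_const.mul
    (Complex.continuous_ofReal.comp (ha.continuous.clm_apply continuous_const))).mul hα.continuous)

lemma dd_cont {a : R4 → R4 →L[ℝ] ℝ} (ha : ContDiff ℝ ∞ a) (u v : R4) :
    Continuous fun x => dd a x u v := by
  have h1 : Continuous (fderiv ℝ a) := ha.continuous_fderiv (by simp)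
  have : (fun x => dd a x u v) = fun x => fderiv ℝ a x u v - fderiv ℝ a x v u := by
    funext x
    simp [dd]
  rw [this]
  exact ((h1.clm_apply continuous_const).clm_apply continuous_const).sub
    ((h1.clm_apply continuous_const).clm_apply continuous_const)

lemma int_cont {f : R4 → ℝ} (hf : Continuous f) : IntegrableOn f cube :=
  hf.continuousOn.integrableOn_compact isCompact_Icc

lemma vol_cube : (volume cube).toReal = 1 := by
  unfold cube
  rw [Real.volume_Icc_pi]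
  simp

lemma len_lower {D : Data} (Q : Quat D) (Z : R4 → En) (K C : ℝ)
    (hmax : ∀ (A : R4 → R4 →L[ℝ] ℝ) (ψ : R4 → Sp) (v : Fin 3 → ℝ), SW Q Z A ψ v →
      ∀ x, ‖ψ x‖ ^ 2 ≤ Q.rho v x + K)
    (hC : ∀ x ∈ cube, ∀ v : Fin 3 → ℝ, Q.rho v x ≤ C * len v)
    (A : R4 → R4 →L[ℝ] ℝ) (ψ : R4 → Sp) (v : Fin 3 → ℝ) (h : SW Q Z A ψ v) :
    ∫ x in cube, ‖ψ x‖ ^ 2 ≤ C * len v + K := by
  have h1 : ∫ x in cube, ‖ψ x‖ ^ 2 ≤ ∫ _x in cube, (C * len v + K) := by
    refine setIntegral_mono_on (int_cont (h.ψ_smooth.continuous.norm.pow 2))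
      (int_cont continuous_const) measurableSet_Icc fun x hx => ?_
    exact (hmax A ψ v h x).trans (by linarith [hC x hx v])
  refine h1.trans (le_of_eq ?_)
  rw [setIntegral_const, measureReal_def, vol_cube, one_smul]

theorem asms : ASMS_statement := by
  intro hMAX hSOL hEN hPOS D hG Q Z hZ hZp hR
  obtain ⟨K, hK, hmax⟩ := hMAX D Q Z hZ hZp
  obtain ⟨M, hsol⟩ := hSOL D Q Z hZ hZp
  obtain ⟨C, r₀, hen⟩ := hEN D Q M
  obtain ⟨C1, hC10, hC1⟩ := rho_bound Q
  obtain ⟨C2, hC20, hC2⟩ := en_le Q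
  have key : ∀ n : ℕ, ∃ (r : ℝ) (u : Fin 3 → ℝ), (n : ℝ) + 1 ≤ r ∧ r₀ ≤ r ∧
      Nonempty (Sol Q M r u) := by
    intro n
    obtain ⟨A, ψ, v, hsw, hint⟩ := hR (C1 * ((n : ℝ) + 1 + |r₀|) + K + 1)
    have h1 := len_lower Q Z K C1 hmax hC1 A ψ v hsw
    have h2 : (n : ℝ) + 1 + |r₀| ≤ len v := by
      by_contra hcon
      push Not at hcon
      have : C1 * len v ≤ C1 * ((n : ℝ) + 1 + |r₀|) :=
        mul_le_mul_of_nonneg_left hcon.le hC10
      linarith
    have hn : (0 : ℝ) ≤ n := Nat.cast_nonneg n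
    have hr0 := abs_nonneg r₀
    have hpos : 0 < len v := by linarith
    refine ⟨len v, fun j => (len v)⁻¹ * v j, by linarith, by linarith [le_abs_self r₀], ?_⟩
    apply hsol A ψ (len v) _ hpos
    · rw [len_smul _ (by positivity)]
      exact inv_mul_cancel₀ hpos.ne'
    · have : (fun j => len v * ((len v)⁻¹ * v j)) = v := by
        funext j
        rw [← mul_assoc, mul_inv_cancel₀ hpos.ne', one_mul]
      rw [this]
      exact hsw
  choose r u hrn hr₀ hs using key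
  let s : ∀ n, Sol Q M (r n) (u n) := fun n => (hs n).some
  have hrlim : Tendsto r atTop atTop :=
    tendsto_atTop_mono (fun n => (by linarith [hrn n] : (n : ℝ) ≤ r n)) tendsto_natCast_atTop_atTop
  refine ⟨{ r := r, a := fun n => (s n).a, α := fun n => (s n).α, r_pos := fun n => (s n).r_pos,
            r_lim := hrlim, a_smooth := fun n => (s n).a_smooth,
            α_smooth := fun n => (s n).α_smooth, a_per := fun n => (s n).a_quasi,
            α_per := fun n k x => ?_, energy := ?_, pos := ?_ }⟩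
  · have := (s n).α_quasi k x
    simpa [smul_eq_mul] using this
  · refine ⟨C2 * C + C + C, fun n => ?_⟩
    have hrp := (s n).r_pos
    have ha := (s n).a_smooth
    have hα := (s n).α_smooth
    obtain ⟨e1, e2, -, -, -, e6⟩ := hen (r n) (u n) (s n) (hr₀ n)
    have i1 : Continuous fun x => ∑ i, ‖nab (s n).a (s n).α x (e i)‖ ^ 2 :=
      continuous_finsetSum _ fun i _ => (nab_cont ha hα (e i)).norm.pow 2
    have i1b : Continuous fun x => ∑ c, ‖cov (s n).a (s n).α x (Q.b c x)‖ ^ 2 :=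
      continuous_finsetSum _ fun i _ => (cov_cont Q ha hα i).norm.pow 2
    have i2 : Continuous fun x => (1 - ‖(s n).α x‖ ^ 2) ^ 2 :=
      (continuous_const.sub (hα.continuous.norm.pow 2)).pow 2
    have i3 : Continuous fun x => ∑ i, ∑ j, dd (s n).a x (e i) (e j) ^ 2 :=
      continuous_finsetSum _ fun i _ => continuous_finsetSum _ fun j _ =>
        (dd_cont ha (e i) (e j)).pow 2
    have hsplit : ∫ x in Icc (0 : R4) 1, en (r n) (s n).a (s n).α x =
        (∫ x in cube, ∑ i, ‖nab (s n).a (s n).α x (e i)‖ ^ 2) +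
          r n * (∫ x in cube, (1 - ‖(s n).α x‖ ^ 2) ^ 2) +
          (1 / r n) * ∫ x in cube, ∑ i, ∑ j, dd (s n).a x (e i) (e j) ^ 2 := by
      unfold en
      rw [← integral_const_mul, ← integral_const_mul, ← integral_add, ← integral_add]
      · rfl
      · exact (int_cont i1).add ((int_cont i2).const_mul _)
      · exact (int_cont i3).const_mul _
      · exact int_cont i1
      · exact (int_cont i2).const_mul _
    rw [hsplit]
    have b1 : ∫ x in cube, ∑ i, ‖nab (s n).a (s n).α x (e i)‖ ^ 2 ≤ C2 * C := by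
      calc ∫ x in cube, ∑ i, ‖nab (s n).a (s n).α x (e i)‖ ^ 2
          ≤ ∫ x in cube, C2 * ∑ c, ‖cov (s n).a (s n).α x (Q.b c x)‖ ^ 2 :=
            setIntegral_mono_on (int_cont i1) ((int_cont i1b).const_mul _) measurableSet_Icc
              fun x hx => hC2 _ _ x hx
        _ = C2 * ∫ x in cube, ∑ c, ‖cov (s n).a (s n).α x (Q.b c x)‖ ^ 2 := integral_const_mul _ _
        _ ≤ C2 * C := mul_le_mul_of_nonneg_left e1 hC20
    have b3 : (1 / r n) * ∫ x in cube, ∑ i, ∑ j, dd (s n).a x (e i) (e j) ^ 2 ≤ C := by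
      rw [one_div, inv_mul_le_iff₀ hrp]
      linarith
    linarith
  · intro φ hφ hφp hφa hφJ ε hε
    exact hPOS D hG Q M r u s hrlim φ hφ hφp hφa hφJ ε hε

end Vale.Agent.P247.H103
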