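import Vale.Agent.P247.H103.QuatA

/-!
# P247, stage 2, S1, `QUAT`: a smooth periodic triangular quaternionic frame
-/

open scoped ContDiff Topology
open Set MeasureTheory Filter Metric

noncomputable section

namespace Vale.Agent.P247.H103

open Vale.Agent.P247.H74 Vale.Agent.P247.H574 Vale.Agent.P247.H647

/-! ## The metric of `D` -/

section
variable (D : Data)

lemma cf2_smooth (a : CForm) : ContDiff ℝ ∞ (cf2 a) := by
  have h1 : ContDiff ℝ ∞ (fderiv ℝ a.lam) := a.lam_smooth.fderiv_right (by simp)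
  have h0 : ContDiff ℝ ∞ (fun B : R4 →L[ℝ] R4 →L[ℝ] ℝ => B.flip) :=
    LinearIsometryEquiv.contDiff (𝕜 := ℝ) (E := R4 →L[ℝ] R4 →L[ℝ] ℝ)
      (F := R4 →L[ℝ] R4 →L[ℝ] ℝ) (ContinuousLinearMap.flipₗᵢ ℝ R4 R4 ℝ)
  have h2 : ContDiff ℝ ∞ fun x => (fderiv ℝ a.lam x).flip := h0.comp h1
  unfold cf2 dd
  exact contDiff_const.add (h1.sub h2)

lemma fderiv_per {E : Type*} [NormedAddCommGroup E] [NormedSpace ℝ E] {g : R4 → E}
    (hg : Per4 g) : Per4 (fderiv ℝ g) := by
  intro n x
  have h1 : (fun y : R4 => g (y + fun i => (n i : ℝ))) = g := by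
    funext y
    exact hg n y
  have h2 := fderiv_comp_add_right (𝕜 := ℝ) (f := g) (x := x) (fun i => (n i : ℝ))
  rw [h1] at h2
  exact h2.symm

lemma cf2_per (a : CForm) : Per4 (cf2 a) := by
  intro n x
  have h1 : Per4 a.lam := fun n x => a.lam_per n x
  simp only [cf2, dd, fderiv_per h1 n x]

lemma cf2_swap (a : CForm) (x u v : R4) : cf2 a x u v = - cf2 a x v u :=
  H726.F2_swap (H726.cf2_self a x) u v

/-- the metric at `x` -/
def gx (x u v : R4) : ℝ := gf (cf2 D.om x) (D.J x) u v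

lemma J_per' (n : Fin 4 → ℤ) (x : R4) : D.J (tr n x) = D.J x := D.J_per n x

lemma gx_per (n : Fin 4 → ℤ) (x u v : R4) : gx D (tr n x) u v = gx D x u v := by
  unfold gx
  rw [cf2_per, J_per']

lemma gx_smooth {u v : R4 → R4} (hu : ContDiff ℝ ∞ u) (hv : ContDiff ℝ ∞ v) :
    ContDiff ℝ ∞ fun x => gx D x (u x) (v x) := by
  unfold gx gf
  have ho := cf2_smooth D.om
  exact (((ho.clm_apply hu).clm_apply (D.J_smooth.clm_apply hv)).add
    ((ho.clm_apply hv).clm_apply (D.J_smooth.clm_apply hu))).div_const 2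

lemma tame' (x u : R4) (hu : u ≠ 0) : 0 < cf2 D.om x u (D.J x u) := by
  rw [← H726.val_cf2]
  exact D.tame x u hu

lemma gx_pos (x : R4) {u : R4} (hu : u ≠ 0) : 0 < gx D x u u := gf_pos (tame' D x) hu

/-! ## Gram-Schmidt -/

/-- smooth periodic fields in the span of the last basis vectors -/
structure Up (a : Fin 4) (u : R4 → R4) : Prop where
  smooth : ContDiff ℝ ∞ u
  per : Per4 u
  zero : ∀ x i, i < a → u x i = 0
  pos : ∀ x, 0 < u x a

variable {D} in
lemma Up.ne {a : Fin 4} {u : R4 → R4} (h : Up a u) (x : R4) : u x ≠ 0 := by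
  intro h0
  have := h.pos x
  rw [h0] at this
  exact lt_irrefl _ this

lemma up_e (a : Fin 4) : Up a fun _ => e a where
  smooth := contDiff_const
  per := fun _ _ => rfl
  zero := fun _ i hi => by simp [e, hi.ne]
  pos := fun _ => by simp [e]

/-- normalisation -/
def nrm (u : R4 → R4) (x : R4) : R4 := (Real.sqrt (gx D x (u x) (u x)))⁻¹ • u x

/-- projection -/
def prj (u w : R4 → R4) (x : R4) : R4 := u x - gx D x (u x) (w x) • w x

variable {D}

lemma Up.nrm {a : Fin 4} {u : R4 → R4} (h : Up a u) : Up a (nrm D u) where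
  smooth := by
    refine ContDiff.smul (ContDiff.inv ((gx_smooth D h.smooth h.smooth).sqrt
      fun x => (gx_pos D x (h.ne x)).ne') fun x => ?_) h.smooth
    exact (Real.sqrt_pos.2 (gx_pos D x (h.ne x))).ne'
  per := fun n x => by
    unfold H103.nrm
    rw [h.per n x, gx_per]
  zero := fun x i hi => by
    simp [H103.nrm, h.zero x i hi]
  pos := fun x => by
    have := Real.sqrt_pos.2 (gx_pos D x (h.ne x))
    have h2 := h.pos x
    simp only [H103.nrm, Pi.smul_apply, smul_eq_mul]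
    positivity

lemma Up.prj {a c : Fin 4} {u w : R4 → R4} (h : Up a u) (hw : Up c w) (hac : a < c) :
    Up a (prj D u w) where
  smooth := h.smooth.sub ((gx_smooth D h.smooth hw.smooth).smul hw.smooth)
  per := fun n x => by
    unfold H103.prj
    rw [h.per n x, hw.per n x, gx_per]
  zero := fun x i hi => by
    simp [H103.prj, h.zero x i hi, hw.zero x i (hi.trans hac)]
  pos := fun x => by
    have h2 := h.pos x
    simp only [H103.prj, Pi.sub_apply, Pi.smul_apply, hw.zero x a hac, smul_eq_mul, mul_zero,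
      sub_zero]
    exact h2

lemma nrm_one {a : Fin 4} {u : R4 → R4} (h : Up a u) (x : R4) :
    gx D x (nrm D u x) (nrm D u x) = 1 := by
  have h1 := gx_pos D x (h.ne x)
  have h2 := Real.sqrt_pos.2 h1
  have h3 := Real.sq_sqrt h1.le
  unfold nrm
  unfold gx at *
  rw [gf_smul_left, gf_smul_right]
  field_simp
  exact h3.symm

lemma nrm_orth {u z : R4 → R4} (x : R4) (h : gx D x (u x) (z x) = 0) :
    gx D x (nrm D u x) (z x) = 0 := by
  unfold nrm
  unfold gx at *
  rw [gf_smul_left, h, mul_zero]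

lemma prj_orth {u w : R4 → R4} (x : R4) (h : gx D x (w x) (w x) = 1) :
    gx D x (prj D u w x) (w x) = 0 := by
  unfold prj
  unfold gx at *
  rw [gf_sub_left, gf_smul_left, h, mul_one, sub_self]

lemma prj_keep {u w z : R4 → R4} (x : R4) (h : gx D x (u x) (z x) = 0)
    (h' : gx D x (w x) (z x) = 0) : gx D x (prj D u w x) (z x) = 0 := by
  unfold prj
  unfold gx at *
  rw [gf_sub_left, gf_smul_left, h, h', mul_zero, sub_zero]

variable (D) in
/-- there is a smooth periodic orthonormal triangular frame -/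
lemma exists_frame : ∃ w : Fin 4 → R4 → R4, (∀ a, Up a (w a)) ∧
    ∀ x a c, gx D x (w a x) (w c x) = if a = c then 1 else 0 := by
  let w3 := nrm D fun _ => e 3
  have u3 : Up 3 w3 := (up_e 3).nrm
  have n3 : ∀ x, gx D x (w3 x) (w3 x) = 1 := nrm_one (up_e 3)
  let v2 := prj D (fun _ => e 2) w3
  have uv2 : Up 2 v2 := (up_e 2).prj u3 (by decide)
  let w2 := nrm D v2
  have u2 : Up 2 w2 := uv2.nrm
  have n2 : ∀ x, gx D x (w2 x) (w2 x) = 1 := nrm_one uv2
  have n23 : ∀ x, gx D x (w2 x) (w3 x) = 0 := fun x => nrm_orth x (prj_orth x (n3 x))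
  have n32 : ∀ x, gx D x (w3 x) (w2 x) = 0 := fun x => (gf_symm _ _).trans (n23 x)
  let v1 := prj D (prj D (fun _ => e 1) w3) w2
  have uv1 : Up 1 v1 := ((up_e 1).prj u3 (by decide)).prj u2 (by decide)
  let w1 := nrm D v1
  have u1 : Up 1 w1 := uv1.nrm
  have n1 : ∀ x, gx D x (w1 x) (w1 x) = 1 := nrm_one uv1
  have n12 : ∀ x, gx D x (w1 x) (w2 x) = 0 := fun x => nrm_orth x (prj_orth x (n2 x))
  have n13 : ∀ x, gx D x (w1 x) (w3 x) = 0 := fun x =>
    nrm_orth x (prj_keep x (prj_orth x (n3 x)) (n23 x))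
  have n21 : ∀ x, gx D x (w2 x) (w1 x) = 0 := fun x => (gf_symm _ _).trans (n12 x)
  have n31 : ∀ x, gx D x (w3 x) (w1 x) = 0 := fun x => (gf_symm _ _).trans (n13 x)
  let v0 := prj D (prj D (prj D (fun _ => e 0) w3) w2) w1
  have uv0 : Up 0 v0 :=
    (((up_e 0).prj u3 (by decide)).prj u2 (by decide)).prj u1 (by decide)
  let w0 := nrm D v0
  have u0 : Up 0 w0 := uv0.nrm
  have n0 : ∀ x, gx D x (w0 x) (w0 x) = 1 := nrm_one uv0
  have n01 : ∀ x, gx D x (w0 x) (w1 x) = 0 := fun x => nrm_orth x (prj_orth x (n1 x))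
  have n02 : ∀ x, gx D x (w0 x) (w2 x) = 0 := fun x =>
    nrm_orth x (prj_keep x (prj_orth x (n2 x)) (n12 x))
  have n03 : ∀ x, gx D x (w0 x) (w3 x) = 0 := fun x =>
    nrm_orth x (prj_keep x (prj_keep x (prj_orth x (n3 x)) (n23 x)) (n13 x))
  have n10 : ∀ x, gx D x (w1 x) (w0 x) = 0 := fun x => (gf_symm _ _).trans (n01 x)
  have n20 : ∀ x, gx D x (w2 x) (w0 x) = 0 := fun x => (gf_symm _ _).trans (n02 x)
  have n30 : ∀ x, gx D x (w3 x) (w0 x) = 0 := fun x => (gf_symm _ _).trans (n03 x)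
  refine ⟨![w0, w1, w2, w3], fun a => ?_, fun x a c => ?_⟩
  · fin_cases a
    · exact u0
    · exact u1
    · exact u2
    · exact u3
  · fin_cases a <;> fin_cases c
    · exact n0 x
    · exact n01 x
    · exact n02 x
    · exact n03 x
    · exact n10 x
    · exact n1 x
    · exact n12 x
    · exact n13 x
    · exact n20 x
    · exact n21 x
    · exact n2 x
    · exact n23 x
    · exact n30 x
    · exact n31 x
    · exact n32 x
    · exact n3 x

end

/-! ## The triple in the frame -/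

section
variable {D : Data} (x : R4)

lemma eta_J' (j : Fin 2) (u v : R4) : cf2 (D.η j) x u (D.J x v) =
    ∑ k, D.c x j k * cf2 (D.η k) x u v := by
  simp only [← H726.val_cf2]
  exact D.η_J j x u v

lemma eta_anti (j : Fin 2) (u v : R4) :
    cf2 (D.η j) x (D.J x u) (D.J x v) = - cf2 (D.η j) x u v := by
  rw [eta_J']
  have h1 : ∀ k, cf2 (D.η k) x (D.J x u) v = - ∑ l, D.c x k l * cf2 (D.η l) x v u := by
    intro k
    rw [cf2_swap, eta_J']
  simp only [h1, Fin.sum_univ_two]
  have c00 := D.c_sq x 0 0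
  have c01 := D.c_sq x 0 1
  have c10 := D.c_sq x 1 0
  have c11 := D.c_sq x 1 1
  simp only [Fin.sum_univ_two] at c00 c01 c10 c11
  simp at c00 c01 c10 c11
  have s0 := cf2_swap (D.η 0) x v u
  have s1 := cf2_swap (D.η 1) x v u
  rw [s0, s1]
  fin_cases j
  · simp only [Fin.zero_eta]
    linear_combination (cf2 (D.η 0) x u v) * c00 + (cf2 (D.η 1) x u v) * c01
  · simp only [Fin.mk_one]
    linear_combination (cf2 (D.η 0) x u v) * c10 + (cf2 (D.η 1) x u v) * c11

lemma eta_uJ (j : Fin 2) (u : R4) : cf2 (D.η j) x u (D.J x u) = 0 := by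
  rw [eta_J']
  simp [H726.cf2_self]

lemma J_sq' (u : R4) : D.J x (D.J x u) = -u := D.J_sq x u

/-- all three forms are self-dual in an orthonormal frame of positive determinant -/
lemma tri_sd (hG : Good D) {w : Fin 4 → R4}
    (h : ∀ a c, gx D x (w a) (w c) = if a = c then 1 else 0)
    (hdet : 0 < Matrix.det (Matrix.of fun i a => w a i)) (j : Fin 3) :
    SD (fr w fun u v => cf2 (tri D j) x u v) := by
  have hJ : ∀ u, D.J x (D.J x u) = -u := D.J_sq x
  have hom : ∀ u v, cf2 D.om x u v = - cf2 D.om x v u := cf2_swap D.om x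
  have hON : ON (cf2 D.om x) (D.J x) w := h
  have hη : ∀ i, (SD (jm (cf2 D.om x) (D.J x) w) → SD (fr w fun u v => cf2 (D.η i) x u v)) ∧
      (ASD (jm (cf2 D.om x) (D.J x) w) → ASD (fr w fun u v => cf2 (D.η i) x u v)) :=
    fun i => dual_of_anti hJ hom hON (cf2_swap (D.η i) x) (eta_anti x i)
  have hsd : SD (jm (cf2 D.om x) (D.J x) w) := by
    rcases sd_or_asd (jm_anti hJ hom w) (jm_sq hJ hON) with h1 | h1
    · exact h1
    · exfalso
      obtain ⟨a1, a2, a3⟩ := (hη 0).2 h1
      have h2 := hG.orient x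
      have h3 := H726.w4_frame (H726.cf2_self (D.η 0) x) (H726.cf2_self (D.η 0) x) w
      have h4 : w4 (fun u v => (D.η 0).val x u v) (fun u v => (D.η 0).val x u v) =
          w4 (fun u v => cf2 (D.η 0) x u v) (fun u v => cf2 (D.η 0) x u v) := by
        simp only [w4, H726.val_cf2]
      rw [h4] at h2
      have h5 := mul_pos hdet h2
      rw [← h3] at h5
      simp only [wdA, a1, a2, a3] at h5
      nlinarith [sq_nonneg (fr w (fun p q => cf2 (D.η 0) x p q) 2 3),
        sq_nonneg (fr w (fun p q => cf2 (D.η 0) x p q) 1 3),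
        sq_nonneg (fr w (fun p q => cf2 (D.η 0) x p q) 1 2)]
  fin_cases j
  · exact om_sd hJ hom hON hsd
  · exact (hη 0).1 hsd
  · exact (hη 1).1 hsd

/-- a vanishing combination of the triple is trivial -/
lemma tri_indep (hG : Good D) (s : Fin 3 → ℝ)
    (h : ∀ u v, ∑ j, s j * cf2 (tri D j) x u v = 0) : s = 0 := by
  have t0 : ∀ u v, cf2 (tri D 0) x u v = cf2 D.om x u v := fun _ _ => rfl
  have t1 : ∀ u v, cf2 (tri D 1) x u v = cf2 (D.η 0) x u v := fun _ _ => rfl
  have t2 : ∀ u v, cf2 (tri D 2) x u v = cf2 (D.η 1) x u v := fun _ _ => rfl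
  simp only [Fin.sum_univ_three, t0, t1, t2] at h
  have he : e 0 ≠ (0 : R4) := by
    intro h0
    have := congrFun h0 0
    simp [e] at this
  have h0 : s 0 = 0 := by
    have h1 := h (e 0) (D.J x (e 0))
    rw [eta_uJ, eta_uJ, mul_zero, mul_zero, add_zero, add_zero] at h1
    rcases mul_eq_zero.1 h1 with h2 | h2
    · exact h2
    · exact absurd h2 (tame' D x _ he).ne'
  have h1 : ∀ u v, s 1 * cf2 (D.η 0) x u v + s 2 * cf2 (D.η 1) x u v = 0 := by
    intro u v
    have := h u v
    rw [h0, zero_mul, zero_add] at this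
    exact this
  have h2 : ∀ u v, (s 1 * D.c x 0 0 + s 2 * D.c x 1 0) * cf2 (D.η 0) x u v +
      (s 1 * D.c x 0 1 + s 2 * D.c x 1 1) * cf2 (D.η 1) x u v = 0 := by
    intro u v
    have := h1 u (D.J x v)
    rw [eta_J', eta_J', Fin.sum_univ_two, Fin.sum_univ_two] at this
    linarith
  have c00 := D.c_sq x 0 0
  have c01 := D.c_sq x 0 1
  have c10 := D.c_sq x 1 0
  have c11 := D.c_sq x 1 1
  simp only [Fin.sum_univ_two] at c00 c01 c10 c11
  simp at c00 c01 c10 c11
  -- not all values of `η 0` vanish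
  obtain ⟨u, v, huv⟩ : ∃ u v, cf2 (D.η 0) x u v ≠ 0 := by
    by_contra hcon
    push Not at hcon
    have h3 := hG.orient x
    simp [w4, H726.val_cf2, hcon] at h3
  have h3 := h1 u v
  have h4 := h2 u v
  generalize cf2 (D.η 0) x u v = E at *
  generalize cf2 (D.η 1) x u v = F at *
  generalize D.c x 0 0 = a at *
  generalize D.c x 0 1 = b at *
  generalize D.c x 1 0 = c at *
  generalize D.c x 1 1 = d at *
  -- determinant
  have h5 : (s 1 ^ 2 * b + s 1 * s 2 * (d - a) - s 2 ^ 2 * c) * E = 0 := by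
    linear_combination (s 1 * b + s 2 * d) * h3 - s 2 * h4
  have h6 : s 1 ^ 2 * b + s 1 * s 2 * (d - a) - s 2 ^ 2 * c = 0 :=
    (mul_eq_zero.1 h5).resolve_right huv
  have hb : b ≠ 0 := by
    rintro rfl
    nlinarith [sq_nonneg a]
  have hd : d = - a := by
    have : b * (a + d) = 0 := by linarith
    rcases mul_eq_zero.1 this with h7 | h7
    · exact absurd h7 hb
    · linarith
  subst hd
  -- b * (...) = (b s1 - a s2)^2 + s2^2
  have h7 : (b * s 1 - a * s 2) ^ 2 + s 2 ^ 2 = 0 := by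
    linear_combination b * h6 + s 2 ^ 2 * c00
  have h8 : s 2 = 0 := by
    have := sq_nonneg (b * s 1 - a * s 2)
    have h9 := sq_nonneg (s 2)
    have h10 : s 2 ^ 2 = 0 := by linarith
    exact pow_eq_zero_iff (two_ne_zero) |>.1 h10
  have h9 : s 1 = 0 := by
    rw [h8] at h7
    have h10 : b * s 1 = 0 := by
      have : (b * s 1) ^ 2 = 0 := by linear_combination h7
      exact pow_eq_zero_iff (two_ne_zero) |>.1 this
    exact (mul_eq_zero.1 h10).resolve_left hb
  funext j
  fin_cases j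
  · exact h0
  · exact h9
  · exact h8

end

/-! ## The frame -/

theorem quat : H931.S1.QUAT_statement := by
  intro D hG
  obtain ⟨w, hw, hON⟩ := exists_frame D
  -- the determinant
  let Δ : R4 → ℝ := fun x => w 0 x 0 * w 1 x 1 * w 2 x 2 * w 3 x 3
  have hΔ : ∀ x, 0 < Δ x := fun x => mul_pos (mul_pos (mul_pos ((hw 0).pos x) ((hw 1).pos x))
    ((hw 2).pos x)) ((hw 3).pos x)
  have hcomp : ∀ a i, ContDiff ℝ ∞ fun x => w a x i := fun a i =>
    (contDiff_apply ℝ ℝ i).comp (hw a).smooth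
  have hΔs : ContDiff ℝ ∞ Δ := (((hcomp 0 0).mul (hcomp 1 1)).mul (hcomp 2 2)).mul (hcomp 3 3)
  have hwdet : ∀ x, Matrix.det (Matrix.of fun i a => w a x i) = Δ x := by
    intro x
    have h := H726.det4 fun a => w a x
    have h10 : w 1 x 0 = 0 := (hw 1).zero x 0 (by decide)
    have h20 : w 2 x 0 = 0 := (hw 2).zero x 0 (by decide)
    have h21 : w 2 x 1 = 0 := (hw 2).zero x 1 (by decide)
    have h30 : w 3 x 0 = 0 := (hw 3).zero x 0 (by decide)
    have h31 : w 3 x 1 = 0 := (hw 3).zero x 1 (by decide)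
    have h32 : w 3 x 2 = 0 := (hw 3).zero x 2 (by decide)
    rw [h]
    simp only [h10, h20, h21, h30, h31, h32, Δ]
    ring
  -- the factor
  let lm : R4 → ℝ := fun x => (Real.sqrt (Real.sqrt (Δ x)))⁻¹
  have hlm : ∀ x, 0 < lm x := fun x => inv_pos.2 (Real.sqrt_pos.2 (Real.sqrt_pos.2 (hΔ x)))
  have hlms : ContDiff ℝ ∞ lm := ((hΔs.sqrt fun x => (hΔ x).ne').sqrt
    fun x => (Real.sqrt_pos.2 (hΔ x)).ne').inv
      fun x => (Real.sqrt_pos.2 (Real.sqrt_pos.2 (hΔ x))).ne'
  have hlm4 : ∀ x, lm x ^ 4 * Δ x = 1 := by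
    intro x
    have h1 : Real.sqrt (Real.sqrt (Δ x)) ^ 4 = Δ x := by
      have h2 := Real.sq_sqrt (Real.sqrt_nonneg (Δ x))
      have h3 := Real.sq_sqrt (hΔ x).le
      calc Real.sqrt (Real.sqrt (Δ x)) ^ 4 = (Real.sqrt (Real.sqrt (Δ x)) ^ 2) ^ 2 := by ring
        _ = Δ x := by rw [h2, h3]
    simp only [lm]
    rw [inv_pow, h1]
    exact inv_mul_cancel₀ (hΔ x).ne'
  have hΔper : Per4 Δ := fun n x => by
    simp only [Δ]
    rw [(hw 0).per n x, (hw 1).per n x, (hw 2).per n x, (hw 3).per n x]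
  have hlmper : Per4 lm := fun n x => by
    simp only [lm]
    rw [hΔper n x]
  let b : Fin 4 → R4 → R4 := fun a x => lm x • w a x
  have hbs : ∀ a, ContDiff ℝ ∞ (b a) := fun a => hlms.smul (hw a).smooth
  have hbp : ∀ a, Per4 (b a) := fun a n x => by
    simp only [b]
    rw [hlmper n x, (hw a).per n x]
  have hsd : ∀ x j, SD (fr (fun a => b a x) fun u v => cf2 (tri D j) x u v) := by
    intro x j
    obtain ⟨s1, s2, s3⟩ := tri_sd x hG (w := fun a => w a x) (hON x)
      (by rw [hwdet]; exact hΔ x) j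
    have h1 : ∀ a c, fr (fun a => b a x) (fun u v => cf2 (tri D j) x u v) a c =
        lm x ^ 2 * fr (fun a => w a x) (fun u v => cf2 (tri D j) x u v) a c := by
      intro a c
      simp only [fr, b, map_smul, smul_apply, smul_eq_mul]
      ring
    unfold SD
    rw [h1, h1, h1, h1, h1, h1, s1, s2, s3]
    exact ⟨rfl, by ring, rfl⟩
  let T : R4 → Matrix (Fin 3) (Fin 3) ℝ :=
    fun x => Matrix.of fun j k => cf2 (tri D j) x (b 0 x) (b k.succ x)
  have htri : ∀ x j a c, cf2 (tri D j) x (b a x) (b c x) = ∑ k, T x j k * omM k a c := by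
    intro x j a c
    exact sd_expand (fun a c => cf2_swap _ _ _ _) (hsd x j) a c
  have hbdet : ∀ x, Matrix.det (Matrix.of fun i a => b a x i) = 1 := by
    intro x
    have h1 : (Matrix.of fun i a => b a x i) = lm x • Matrix.of fun i a => w a x i := by
      ext i a
      simp [b]
    rw [h1, Matrix.det_smul, hwdet, Fintype.card_fin]
    exact hlm4 x
  refine ⟨⟨b, hbs, hbp, hbdet, T, ?_, ?_, ?_, ?_⟩, ?_, ?_⟩
  · intro j k
    exact ((cf2_smooth (tri D j)).clm_apply (hbs 0)).clm_apply (hbs k.succ)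
  · intro j k n x
    simp only [T, Matrix.of_apply]
    rw [cf2_per, hbp 0 n x, hbp k.succ n x]
  · intro x hdet
    obtain ⟨s, hs, hs0⟩ := Matrix.exists_vecMul_eq_zero_iff.2 hdet
    apply hs
    apply tri_indep x hG
    intro u v
    -- expand in the frame
    have hONx : ON (cf2 D.om x) (D.J x) fun a => w a x := hON x
    have hexp : ∀ u : R4, ∃ y : Fin 4 → ℝ, u = ∑ a, y a • b a x := by
      intro u
      refine ⟨fun a => (lm x)⁻¹ * gf (cf2 D.om x) (D.J x) u (w a x), ?_⟩
      conv_lhs => rw [hONx.expand u]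
      refine Finset.sum_congr rfl fun a _ => ?_
      simp only [b, smul_smul]
      congr 1
      have := (hlm x).ne'
      field_simp
    obtain ⟨y, rfl⟩ := hexp u
    obtain ⟨z, rfl⟩ := hexp v
    have h1 : ∀ j, cf2 (tri D j) x (∑ a, y a • b a x) (∑ a, z a • b a x) =
        ∑ a, ∑ c, y a * z c * ∑ k, T x j k * omM k a c := by
      intro j
      simp only [map_sum, sum_apply, map_smul, smul_apply, smul_eq_mul, htri]
      simp only [Finset.mul_sum]
      rw [Finset.sum_comm]
      refine Finset.sum_congr rfl fun a _ => Finset.sum_congr rfl fun c _ =>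
        Finset.sum_congr rfl fun k _ => ?_
      ring
    simp only [h1]
    have h2 : ∀ k, ∑ j, s j * T x j k = 0 := fun k => congrFun hs0 k
    calc ∑ j, s j * ∑ a, ∑ c, y a * z c * ∑ k, T x j k * omM k a c
        = ∑ a, ∑ c, ∑ k, y a * z c * omM k a c * ∑ j, s j * T x j k := by
          simp only [Finset.mul_sum]
          rw [Finset.sum_comm]
          refine Finset.sum_congr rfl fun a _ => ?_
          rw [Finset.sum_comm]
          refine Finset.sum_congr rfl fun c _ => ?_
          rw [Finset.sum_comm]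
          refine Finset.sum_congr rfl fun k _ => Finset.sum_congr rfl fun j _ => ?_
          ring
      _ = 0 := by simp [h2]
  · intro x j a c
    rw [H726.val_cf2]
    exact htri x j a c
  · intro a x i hi
    simp [b, (hw a).zero x i hi]
  · intro a x
    simp only [b, Pi.smul_apply, smul_eq_mul]
    exact mul_pos (hlm x) ((hw a).pos x)

end Vale.Agent.P247.H103
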