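import Vale.Agent.P247.H726.Frm
import Vale.Agent.P247.H931.S1.Sta

/-!
# P247, stage 2, S1, `QUAT`: the algebra of one point
-/

open scoped ContDiff Topology
open Set MeasureTheory Filter Metric

noncomputable section

namespace Vale.Agent.P247.H103

open Vale.Agent.P247.H74 Vale.Agent.P247.H574 Vale.Agent.P247.H647

/-! ## Antisymmetric arrays -/

/-- self-dual arrays -/
def SD (f : Fin 4 → Fin 4 → ℝ) : Prop := f 0 1 = f 2 3 ∧ f 0 2 = - f 1 3 ∧ f 0 3 = f 1 2

/-- anti-self-dual arrays -/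
def ASD (f : Fin 4 → Fin 4 → ℝ) : Prop := f 0 1 = - f 2 3 ∧ f 0 2 = f 1 3 ∧ f 0 3 = - f 1 2

lemma sd_or_asd {j : Fin 4 → Fin 4 → ℝ} (ha : ∀ a c, j a c = - j c a)
    (h2 : ∀ a c, ∑ b, j a b * j b c = if a = c then -1 else 0) : SD j ∨ ASD j := by
  have z0 : j 0 0 = 0 := by linarith [ha 0 0]
  have z1 : j 1 1 = 0 := by linarith [ha 1 1]
  have z2 : j 2 2 = 0 := by linarith [ha 2 2]
  have z3 : j 3 3 = 0 := by linarith [ha 3 3]
  have h00 := h2 0 0
  have h11 := h2 1 1
  have h22 := h2 2 2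
  have h33 := h2 3 3
  have h01 := h2 0 1
  have h02 := h2 0 2
  have h03 := h2 0 3
  have h12 := h2 1 2
  have h13 := h2 1 3
  have h23 := h2 2 3
  simp only [Fin.sum_univ_four, z0, z1, z2, z3, ha 1 0, ha 2 0, ha 3 0, ha 2 1, ha 3 1, ha 3 2]
    at h00 h11 h22 h33 h01 h02 h03 h12 h13 h23
  simp at h00 h11 h22 h33 h01 h02 h03 h12 h13 h23
  unfold SD ASD
  generalize j 0 1 = a at *
  generalize j 0 2 = b at *
  generalize j 0 3 = c at *
  generalize j 1 2 = d at *
  generalize j 1 3 = e at *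
  generalize j 2 3 = f at *
  have k1 : (a - f) * (a + f) = 0 := by linear_combination (-1 / 2) * (h00 + h11 - h22 - h33)
  have k2 : (a - f) * (b - e) = 0 := by linear_combination -h12 - h03
  have k3 : (a - f) * (c + d) = 0 := by linear_combination -h13 + h02
  have k4 : (b + e) * (a + f) = 0 := by linear_combination -h12 + h03
  have k5 : (b + e) * (b - e) = 0 := by linear_combination (-1 / 2) * (h00 + h22 - h11 - h33)
  have k6 : (b + e) * (c + d) = 0 := by linear_combination -h23 - h01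
  have k7 : (c - d) * (a + f) = 0 := by linear_combination -h13 - h02
  have k8 : (c - d) * (b - e) = 0 := by linear_combination -h23 + h01
  have k9 : (c - d) * (c + d) = 0 := by linear_combination (-1 / 2) * (h00 + h33 - h11 - h22)
  by_cases hp : a - f = 0
  · by_cases hq : b + e = 0
    · by_cases hr : c - d = 0
      · left; exact ⟨by linarith, by linarith, by linarith⟩
      · right
        have q1 := (mul_eq_zero.1 k7).resolve_left hr
        have q2 := (mul_eq_zero.1 k8).resolve_left hr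
        have q3 := (mul_eq_zero.1 k9).resolve_left hr
        exact ⟨by linarith, by linarith, by linarith⟩
    · right
      have q1 := (mul_eq_zero.1 k4).resolve_left hq
      have q2 := (mul_eq_zero.1 k5).resolve_left hq
      have q3 := (mul_eq_zero.1 k6).resolve_left hq
      exact ⟨by linarith, by linarith, by linarith⟩
  · right
    have q1 := (mul_eq_zero.1 k1).resolve_left hp
    have q2 := (mul_eq_zero.1 k2).resolve_left hp
    have q3 := (mul_eq_zero.1 k3).resolve_left hp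
    exact ⟨by linarith, by linarith, by linarith⟩

/-- an antisymmetric array which anticommutes with a self-dual complex structure is self-dual -/
lemma anti_sd {j ψ : Fin 4 → Fin 4 → ℝ} (ha : ∀ a c, j a c = - j c a)
    (h2 : ∀ a c, ∑ b, j a b * j b c = if a = c then -1 else 0) (hψ : ∀ a c, ψ a c = - ψ c a)
    (hc : ∀ a c, ∑ b, j b a * ψ b c = ∑ b, j b c * ψ a b) (hs : SD j) : SD ψ := by
  obtain ⟨s1, s2, s3⟩ := hs
  have z0 : j 0 0 = 0 := by linarith [ha 0 0]
  have z1 : j 1 1 = 0 := by linarith [ha 1 1]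
  have z2 : j 2 2 = 0 := by linarith [ha 2 2]
  have z3 : j 3 3 = 0 := by linarith [ha 3 3]
  have y0 : ψ 0 0 = 0 := by linarith [hψ 0 0]
  have y1 : ψ 1 1 = 0 := by linarith [hψ 1 1]
  have y2 : ψ 2 2 = 0 := by linarith [hψ 2 2]
  have y3 : ψ 3 3 = 0 := by linarith [hψ 3 3]
  have h00 := h2 0 0
  have c00 := hc 0 0
  have c11 := hc 1 1
  have c22 := hc 2 2
  have c33 := hc 3 3
  have c01 := hc 0 1
  have c02 := hc 0 2
  have c03 := hc 0 3
  have c12 := hc 1 2
  have c13 := hc 1 3
  have c23 := hc 2 3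
  have s2' : j 1 3 = - j 0 2 := by linarith
  simp only [Fin.sum_univ_four, z0, z1, z2, z3, y0, y1, y2, y3, ha 1 0, ha 2 0, ha 3 0, ha 2 1,
    ha 3 1, ha 3 2, hψ 1 0, hψ 2 0, hψ 3 0, hψ 2 1, hψ 3 1, hψ 3 2, ← s1, s2', ← s3]
    at h00 c00 c11 c22 c33 c01 c02 c03 c12 c13 c23
  simp only [if_true] at h00
  unfold SD
  generalize j 0 1 = p at *
  generalize j 0 2 = q at *
  generalize j 0 3 = r at *
  generalize ψ 0 1 = A at *
  generalize ψ 0 2 = B at *
  generalize ψ 0 3 = C at *
  generalize ψ 1 2 = D at *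
  generalize ψ 1 3 = E at *
  generalize ψ 2 3 = F at *
  have hn : p ^ 2 + q ^ 2 + r ^ 2 = 1 := by linarith
  refine ⟨?_, ?_, ?_⟩
  · have k1 : p * (A - F) = 0 := by linarith
    have k2 : q * (A - F) = 0 := by linarith
    have k3 : r * (A - F) = 0 := by linarith
    linear_combination -(A - F) * hn + p * k1 + q * k2 + r * k3
  · have k1 : p * (B + E) = 0 := by linarith
    have k2 : q * (B + E) = 0 := by linarith
    have k3 : r * (B + E) = 0 := by linarith
    linear_combination -(B + E) * hn + p * k1 + q * k2 + r * k3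
  · have k1 : p * (C - D) = 0 := by linarith
    have k2 : q * (C - D) = 0 := by linarith
    have k3 : r * (C - D) = 0 := by linarith
    linear_combination -(C - D) * hn + p * k1 + q * k2 + r * k3

lemma anti_asd {j ψ : Fin 4 → Fin 4 → ℝ} (ha : ∀ a c, j a c = - j c a)
    (h2 : ∀ a c, ∑ b, j a b * j b c = if a = c then -1 else 0) (hψ : ∀ a c, ψ a c = - ψ c a)
    (hc : ∀ a c, ∑ b, j b a * ψ b c = ∑ b, j b c * ψ a b) (hs : ASD j) : ASD ψ := by
  obtain ⟨s1, s2, s3⟩ := hs
  have z0 : j 0 0 = 0 := by linarith [ha 0 0]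
  have z1 : j 1 1 = 0 := by linarith [ha 1 1]
  have z2 : j 2 2 = 0 := by linarith [ha 2 2]
  have z3 : j 3 3 = 0 := by linarith [ha 3 3]
  have y0 : ψ 0 0 = 0 := by linarith [hψ 0 0]
  have y1 : ψ 1 1 = 0 := by linarith [hψ 1 1]
  have y2 : ψ 2 2 = 0 := by linarith [hψ 2 2]
  have y3 : ψ 3 3 = 0 := by linarith [hψ 3 3]
  have h00 := h2 0 0
  have c00 := hc 0 0
  have c11 := hc 1 1
  have c22 := hc 2 2
  have c33 := hc 3 3
  have c01 := hc 0 1
  have c02 := hc 0 2
  have c03 := hc 0 3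
  have c12 := hc 1 2
  have c13 := hc 1 3
  have c23 := hc 2 3
  have s1' : j 2 3 = - j 0 1 := by linarith
  have s3' : j 1 2 = - j 0 3 := by linarith
  simp only [Fin.sum_univ_four, z0, z1, z2, z3, y0, y1, y2, y3, ha 1 0, ha 2 0, ha 3 0, ha 2 1,
    ha 3 1, ha 3 2, hψ 1 0, hψ 2 0, hψ 3 0, hψ 2 1, hψ 3 1, hψ 3 2, s1', ← s2, s3']
    at h00 c00 c11 c22 c33 c01 c02 c03 c12 c13 c23
  simp only [if_true] at h00
  unfold ASD
  generalize j 0 1 = p at *
  generalize j 0 2 = q at *
  generalize j 0 3 = r at *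
  generalize ψ 0 1 = A at *
  generalize ψ 0 2 = B at *
  generalize ψ 0 3 = C at *
  generalize ψ 1 2 = D at *
  generalize ψ 1 3 = E at *
  generalize ψ 2 3 = F at *
  have hn : p ^ 2 + q ^ 2 + r ^ 2 = 1 := by linarith
  refine ⟨?_, ?_, ?_⟩
  · have k1 : p * (A + F) = 0 := by linarith
    have k2 : q * (A + F) = 0 := by linarith
    have k3 : r * (A + F) = 0 := by linarith
    linear_combination -(A + F) * hn + p * k1 + q * k2 + r * k3
  · have k1 : p * (B - E) = 0 := by linarith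
    have k2 : q * (B - E) = 0 := by linarith
    have k3 : r * (B - E) = 0 := by linarith
    linear_combination -(B - E) * hn + p * k1 + q * k2 + r * k3
  · have k1 : p * (C + D) = 0 := by linarith
    have k2 : q * (C + D) = 0 := by linarith
    have k3 : r * (C + D) = 0 := by linarith
    linear_combination -(C + D) * hn + p * k1 + q * k2 + r * k3

/-- a self-dual array is a combination of the standard ones -/
lemma sd_expand {f : Fin 4 → Fin 4 → ℝ} (ha : ∀ a c, f a c = - f c a) (hs : SD f)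
    (a c : Fin 4) : f a c = ∑ k : Fin 3, f 0 k.succ * omM k a c := by
  obtain ⟨s1, s2, s3⟩ := hs
  have z0 : f 0 0 = 0 := by linarith [ha 0 0]
  have z1 : f 1 1 = 0 := by linarith [ha 1 1]
  have z2 : f 2 2 = 0 := by linarith [ha 2 2]
  have z3 : f 3 3 = 0 := by linarith [ha 3 3]
  have s2' : f 1 3 = - f 0 2 := by linarith
  fin_cases a <;> fin_cases c <;>
    simp [Fin.sum_univ_succ, omM, z0, z1, z2, z3, ha 1 0, ha 2 0, ha 3 0, ha 2 1,
      ha 3 1, ha 3 2, ← s1, s2', ← s3]

/-! ## The metric of `om` and `J` -/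

/-- the metric -/
def gf (om : F2) (J : R4 →L[ℝ] R4) (u v : R4) : ℝ := (om u (J v) + om v (J u)) / 2

section
variable {om : F2} {J : R4 →L[ℝ] R4}

lemma gf_symm (u v : R4) : gf om J u v = gf om J v u := by unfold gf; ring

lemma gf_add_left (u v w : R4) : gf om J (u + v) w = gf om J u w + gf om J v w := by
  unfold gf; simp only [map_add, add_apply]; ring

lemma gf_sub_left (u v w : R4) : gf om J (u - v) w = gf om J u w - gf om J v w := by
  unfold gf; simp only [map_sub, sub_apply]; ring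

lemma gf_smul_left (r : ℝ) (u w : R4) : gf om J (r • u) w = r * gf om J u w := by
  unfold gf; simp only [map_smul, smul_apply, smul_eq_mul]; ring

lemma gf_add_right (u v w : R4) : gf om J w (u + v) = gf om J w u + gf om J w v := by
  rw [gf_symm, gf_add_left, gf_symm u, gf_symm v]

lemma gf_smul_right (r : ℝ) (u w : R4) : gf om J w (r • u) = r * gf om J w u := by
  rw [gf_symm, gf_smul_left, gf_symm u]

lemma gf_neg_left (u w : R4) : gf om J (-u) w = - gf om J u w := by
  unfold gf; simp only [map_neg, neg_apply]; ring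

lemma gf_neg_right (u w : R4) : gf om J w (-u) = - gf om J w u := by
  rw [gf_symm, gf_neg_left, gf_symm u]

lemma gf_sum_left {ι : Type*} (s : Finset ι) (u : ι → R4) (w : R4) :
    gf om J (∑ i ∈ s, u i) w = ∑ i ∈ s, gf om J (u i) w := by
  unfold gf
  simp only [map_sum, sum_apply]
  rw [← Finset.sum_add_distrib, Finset.sum_div]

lemma gf_pos (ht : ∀ u, u ≠ 0 → 0 < om u (J u)) {u : R4} (hu : u ≠ 0) : 0 < gf om J u u := by
  unfold gf; linarith [ht u hu]

lemma gf_J (hJ : ∀ u, J (J u) = -u) (hom : ∀ u v, om u v = - om v u) (u v : R4) :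
    gf om J (J u) v = - gf om J u (J v) := by
  unfold gf
  rw [hJ, hJ, map_neg, map_neg, hom v u, hom (J v) (J u)]
  ring

lemma gf_Jv (hJ : ∀ u, J (J u) = -u) (hom : ∀ u v, om u v = - om v u) (u v : R4) :
    gf om J (J u) v = (om u v + om (J u) (J v)) / 2 := by
  unfold gf
  rw [hJ, map_neg, hom v u]
  ring

/-- orthonormal frames -/
def ON (om : F2) (J : R4 →L[ℝ] R4) (w : Fin 4 → R4) : Prop :=
  ∀ a c, gf om J (w a) (w c) = if a = c then 1 else 0

lemma ON.expand {w : Fin 4 → R4} (h : ON om J w) (v : R4) :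
    v = ∑ a, gf om J v (w a) • w a := by
  have li : LinearIndependent ℝ w := by
    rw [Fintype.linearIndependent_iff]
    intro c hc i
    have h1 : gf om J (∑ a, c a • w a) (w i) = c i := by
      rw [gf_sum_left]
      simp [gf_smul_left, h _ _]
    rw [← h1, hc]
    simp [gf]
  let B := basisOfLinearIndependentOfCardEqFinrank li (by simp)
  have hB : ∀ a, B a = w a := fun a => by simp [B]
  have h2 := B.sum_repr v
  have h3 : ∀ i, gf om J v (w i) = B.repr v i := by
    intro i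
    conv_lhs => rw [← h2, gf_sum_left]
    simp [gf_smul_left, hB, h _ _]
  conv_lhs => rw [← h2]
  exact Finset.sum_congr rfl fun a _ => by rw [h3, hB]

/-- the matrix of `J` -/
def jm (om : F2) (J : R4 →L[ℝ] R4) (w : Fin 4 → R4) (a c : Fin 4) : ℝ := gf om J (J (w c)) (w a)

lemma jm_anti (hJ : ∀ u, J (J u) = -u) (hom : ∀ u v, om u v = - om v u) (w : Fin 4 → R4)
    (a c : Fin 4) : jm om J w a c = - jm om J w c a := by
  unfold jm
  rw [gf_J hJ hom, gf_symm]

lemma jm_sq (hJ : ∀ u, J (J u) = -u) {w : Fin 4 → R4}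
    (h : ON om J w) (a c : Fin 4) :
    ∑ b, jm om J w a b * jm om J w b c = if a = c then -1 else 0 := by
  have h1 : J (w c) = ∑ b, jm om J w b c • w b := h.expand (J (w c))
  have h2 : J (J (w c)) = ∑ b, jm om J w b c • J (w b) := by
    conv_lhs => rw [h1]
    rw [map_sum]
    exact Finset.sum_congr rfl fun b _ => map_smul _ _ _
  have h3 : gf om J (J (J (w c))) (w a) = ∑ b, jm om J w b c * jm om J w a b := by
    rw [h2, gf_sum_left]
    exact Finset.sum_congr rfl fun b _ => by rw [gf_smul_left]; rfl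
  rw [hJ, gf_neg_left, h c a] at h3
  rw [Finset.sum_congr rfl fun b _ => mul_comm (jm om J w a b) (jm om J w b c), ← h3]
  by_cases hac : a = c
  · simp [hac]
  · simp [hac, Ne.symm hac]

lemma anti_rel (hJ : ∀ u, J (J u) = -u) {w : Fin 4 → R4} (h : ON om J w) {Ψ : F2}
    (hΨ : ∀ u v, Ψ (J u) (J v) = - Ψ u v) (a c : Fin 4) :
    ∑ b, jm om J w b a * fr w (fun u v => Ψ u v) b c =
      ∑ b, jm om J w b c * fr w (fun u v => Ψ u v) a b := by
  have h1 : J (w a) = ∑ b, jm om J w b a • w b := h.expand (J (w a))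
  have h2 : J (w c) = ∑ b, jm om J w b c • w b := h.expand (J (w c))
  have h3 : Ψ (J (w a)) (w c) = Ψ (w a) (J (w c)) := by
    have h4 : w c = - J (J (w c)) := by rw [hJ, neg_neg]
    conv_lhs => rw [h4, map_neg, hΨ, neg_neg]
  have h5 : Ψ (J (w a)) (w c) = ∑ b, jm om J w b a * fr w (fun u v => Ψ u v) b c := by
    rw [h1]
    simp [fr]
  have h6 : Ψ (w a) (J (w c)) = ∑ b, jm om J w b c * fr w (fun u v => Ψ u v) a b := by
    rw [h2]
    simp [fr]
  rw [← h5, ← h6, h3]

lemma dual_of_anti (hJ : ∀ u, J (J u) = -u) (hom : ∀ u v, om u v = - om v u) {w : Fin 4 → R4}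
    (h : ON om J w) {Ψ : F2} (hs : ∀ u v, Ψ u v = - Ψ v u)
    (hΨ : ∀ u v, Ψ (J u) (J v) = - Ψ u v) :
    (SD (jm om J w) → SD (fr w fun u v => Ψ u v)) ∧
      (ASD (jm om J w) → ASD (fr w fun u v => Ψ u v)) :=
  ⟨anti_sd (jm_anti hJ hom w) (jm_sq hJ h) (fun a c => hs (w a) (w c)) (anti_rel hJ h hΨ),
    anti_asd (jm_anti hJ hom w) (jm_sq hJ h) (fun a c => hs (w a) (w c)) (anti_rel hJ h hΨ)⟩

lemma om_sd (hJ : ∀ u, J (J u) = -u) (hom : ∀ u v, om u v = - om v u) {w : Fin 4 → R4}
    (h : ON om J w) (hj : SD (jm om J w)) : SD (fr w fun u v => om u v) := by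
  let Ψ : F2 := (1 / 2 : ℝ) • (om - om.bilinearComp J J)
  have hΨv : ∀ u v, Ψ u v = (om u v - om (J u) (J v)) / 2 := by
    intro u v
    simp [Ψ]
    ring
  have h1 := (dual_of_anti hJ hom h (Ψ := Ψ) (fun u v => by
    rw [hΨv, hΨv, hom v u, hom (J v) (J u)]; ring) (fun u v => by
    rw [hΨv, hΨv, hJ, hJ]
    simp only [map_neg, neg_apply]; ring)).1 hj
  have h2 : ∀ a c, fr w (fun u v => om u v) a c =
      jm om J w c a + fr w (fun u v => Ψ u v) a c := by
    intro a c
    simp only [fr, hΨv, jm]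
    rw [gf_Jv hJ hom]
    ring
  have ha := jm_anti (om := om) hJ hom w
  obtain ⟨a1, a2, a3⟩ := hj
  obtain ⟨b1, b2, b3⟩ := h1
  unfold SD
  rw [h2, h2, h2, h2, h2, h2, ha 1 0, ha 3 2, ha 2 0, ha 3 1, ha 3 0, ha 2 1]
  exact ⟨by linarith, by linarith, by linarith⟩

end

end Vale.Agent.P247.H103
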